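import Vale.Agent.P088.R2.H238.A.Rho1
import Vale.Agent.P088.R2.H238.C.Par
import Vale.Agent.P088.R2.H747.A.Rows

/-!
# P088, stage 3, zone A: the geometry of `r` on the package
-/

open Set Filter
open scoped ContDiff Topology Matrix

noncomputable section

namespace Vale.Agent.P088.R2.H238.A

open Vale.Agent.P088.LR
open Vale.Agent.P088.HY hiding dd
open Vale.Agent.P088.R2.H961.GW Vale.Agent.P088.R2.H644.Ch
open Vale.Agent.P088.R2.H464.Cu Vale.Agent.P088.R2.H230.W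
open Vale.Agent.P088.R2.H657.W (TR cG cG_nn)
open Vale.Agent.P088.R2.H31.EP
open Vale.Agent.P088.R2.H747.A (rr hh)
open Vale.Agent.P088.R2.H238.C

variable {n : ℕ} {q : Cst} {d : Pk n} {z : VV n}

/-- The constant of the errors. -/
def cR (n : ℕ) : ℝ := 100 * n ^ 4 * (1 + cG n 12)

theorem cR_nn (n : ℕ) : 0 ≤ cR n := by
  have := cG_nn n 12
  unfold cR; positivity

theorem dif_nn (z : VV n) : nn (dif z) = √(HY.sq (z.1 - z.2)) := by
  unfold nn H230.W.dd HY.sq
  congr 1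
  exact Finset.sum_congr rfl fun i _ => by rw [dif_apply, Pi.sub_apply]; ring

theorem hh_eq (z : VV n) : (fun l => hh l z) = hg z := by
  funext l
  unfold hh hg
  rw [dif_nn, dif_apply]

theorem rr_eq (d : Pk n) : rr d = rg (gi d.s₁) := rfl

/-- The vector `s A`. -/
theorem sU_x (h : PkOk q d) (z : VV n) (A : V n) : sU d.sx z A = up (d.s₁ z.1) A := by
  funext i
  unfold sU up
  refine Finset.sum_congr rfl fun j _ => ?_
  have : d.sx.s i j z = d.s₁ z.1 i j := rfl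
  rw [this, (h.rg.sy₁ z.1).apply j i]

theorem sU_y (h : PkOk q d) (z : VV n) (A : V n) : sU d.sy z A = up (d.s₂ z.2) A := by
  funext i
  unfold sU up
  refine Finset.sum_congr rfl fun j _ => ?_
  have : d.sy.s i j z = d.s₂ z.2 i j := rfl
  rw [this, (h.rg.sy₂ z.2).apply j i]

section abs

variable {s g : MF n} {ε δ₁ δ₂ : ℝ} {x : V n}

theorem nn_le_n {u : V n} {c : ℝ} (h : ∀ i, |u i| ≤ c) : nn u ≤ n * c := by
  refine (nn_le_l1 u).trans ((Finset.sum_le_sum fun i _ => h i).trans ?_)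
  simp

theorem up_nn (N : Nr univ ε δ₁ δ₂ s) (hε : 0 ≤ ε) (A : V n) :
    nn (up (s x) A - A) ≤ n ^ 2 * ε * nn A := by
  refine (nn_le_n (c := n * (ε * nn A)) fun j => ?_).trans (le_of_eq (by ring))
  have e : (up (s x) A - A) j =
      ∑ i, (s x i j - (1 : Matrix (Fin n) (Fin n) ℝ) i j) * A i := by
    simp only [Pi.sub_apply, up, sub_mul, Finset.sum_sub_distrib, Matrix.one_apply]
    simp
  rw [e]
  refine sum_le1 fun i => ?_
  rw [abs_mul]
  have h1 := N.b0 x (mem_univ _) i j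
  have h2 := abs_le_nn A i
  have h3 := nn_nonneg A
  gcongr

theorem nn_single (i : Fin n) : nn (Pi.single i 1 : V n) = 1 := by
  refine nn_one ?_
  unfold H230.W.dd
  simp [Pi.single_apply]

theorem nn_zero' : nn (0 : V n) = 0 := by
  unfold nn H230.W.dd
  simp

theorem dd_single (u : V n) (i : Fin n) : H230.W.dd u (Pi.single i 1) = u i := by
  unfold H230.W.dd
  simp [Pi.single_apply]

end abs

/-- The geometry of `r` at a point. -/
structure Rho (d : Pk n) (e : ℝ) (z : VV n) : Prop where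
  hh : dd (fun l => hh l z) (fun l => hh l z) = 1
  r0 : 0 < rr d z
  rx : nn (gr d.sx (rr d) z - fun l => H747.A.hh l z) ≤ e
  ry : nn (gr d.sy (rr d) z + fun l => H747.A.hh l z) ≤ e
  nx : ∀ A, nn (sU d.sx z A - A) ≤ e * nn A
  ny : ∀ B, nn (sU d.sy z B - B) ≤ e * nn B
  Tr : ∀ A B, |TH d.sx d.sy (rr d) z A B - (rr d z)⁻¹ *
    (dd (sU d.sx z A - sU d.sy z B) (sU d.sx z A - sU d.sy z B) -
      dd (fun l => H747.A.hh l z) (sU d.sx z A - sU d.sy z B) ^ 2)| ≤
    e / rr d z * (dd A A + dd B B)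
  rP : |rr d z - nn (dif z)| ≤ e * nn (dif z)

theorem Rho.mono {e e' : ℝ} (h : Rho d e z) (he : e ≤ e') : Rho d e' z where
  hh := h.hh
  r0 := h.r0
  rx := h.rx.trans he
  ry := h.ry.trans he
  nx A := (h.nx A).trans (mul_le_mul_of_nonneg_right he (nn_nonneg A))
  ny A := (h.ny A).trans (mul_le_mul_of_nonneg_right he (nn_nonneg A))
  Tr A B := (h.Tr A B).trans (mul_le_mul_of_nonneg_right
    (div_le_div_of_nonneg_right he h.r0.le)
    (add_nonneg (dd_self_nonneg A) (dd_self_nonneg B)))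
  rP := h.rP.trans (mul_le_mul_of_nonneg_right he (nn_nonneg _))

/-- **The geometry of `r`.** -/
theorem rho (h : PkOk q d) (T : Th q) (E : Te n q) (Ec : cR n * q.ε ≤ 1 / 100)
    (h0 : z.1 ≠ z.2) (h1 : HY.sq (z.1 - z.2) ≤ q.R ^ 2) : Rho d (cR n * q.ε) z := by
  have hε := E.ε0
  have hR := T.R0
  have hc := cG_nn n 12
  set κ := cG n 12 * q.ε with hκd
  have hκ : 0 ≤ κ := mul_nonneg hc hε.le
  have N : Nr univ κ (κ * q.R⁻¹) (κ * q.R⁻¹ ^ 2) (gi d.s₁) := (gi_TR h T E).nr (by norm_num) univ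
  have N₁ := (H657.W.Rg.t1 h.rg).nr (by norm_num) univ
  have N₂ := (H657.W.Rg.t2 h.rg).nr (by norm_num) univ
  have n34 : (n : ℝ) ^ 3 ≤ n ^ 4 := npow_le n (by norm_num) (by norm_num)
  have n24 : (n : ℝ) ^ 2 ≤ n ^ 4 := npow_le n (by norm_num) (by norm_num)
  have k3 : n ^ 3 * κ ≤ n ^ 4 * κ := mul_le_mul_of_nonneg_right n34 hκ
  have n4 : 0 ≤ (n : ℝ) ^ 4 * q.ε := by positivity
  have k4 : 0 ≤ (n : ℝ) ^ 4 * κ := by positivity
  have eC : cR n * q.ε = 100 * (n ^ 4 * q.ε) + 100 * (n ^ 4 * κ) := by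
    rw [hκd]; unfold cR; ring
  have hδ : n ^ 3 * κ ≤ 1 / 100 := by linarith
  have hn2 : n ^ 2 * q.ε ≤ n ^ 4 * q.ε := mul_le_mul_of_nonneg_right n24 hε.le
  have hP : nn (dif z) ≤ q.R := by
    rw [dif_nn]
    exact Real.sqrt_le_iff.2 ⟨hR.le, h1⟩
  have hP0 : 0 < nn (dif z) := by
    refine nn_pos ?_
    rcases (dd_self_nonneg (dif z)).eq_or_lt with h2 | h2
    · exfalso
      apply h0
      have h3 : ∀ i, dif z i = 0 := by
        intro i
        have := abs_le_nn (dif z) i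
        have h4 : nn (dif z) = 0 := by unfold nn; rw [← h2, Real.sqrt_zero]
        rw [h4] at this
        exact abs_eq_zero.1 (le_antisymm this (abs_nonneg _))
      funext i
      have := h3 i
      rw [dif_apply] at this
      linarith
    · exact h2
  obtain ⟨hpos, b1, b2, b3⟩ := rg_P N hκ hP0 hδ
  have hr := rg_pos hpos
  have sup : ∀ A, nn (sU d.sx z A - A) ≤ n ^ 2 * q.ε * nn A := fun A => by
    rw [sU_x h]; exact up_nn N₁ hε.le A
  have sup' : ∀ A, nn (sU d.sy z A - A) ≤ n ^ 2 * q.ε * nn A := fun A => by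
    rw [sU_y h]; exact up_nn N₂ hε.le A
  refine ⟨?_, hr, ?_, ?_, ?_, ?_, ?_, ?_⟩
  · rw [hh_eq]; exact hg_one hP0
  · rw [hh_eq, rr_eq]
    refine (nn_le_n (c := 4 * (n ^ 3 * κ)) fun i => ?_).trans ?_
    · have h2 := rg_D N hR hκ hP hP0 hδ (Pi.single i 1, 0)
      have e1 : dif ((Pi.single i 1, 0) : VV n) = Pi.single i 1 := by simp [dif]
      rw [e1, dd_single] at h2
      simp only [nn_single, nn_zero', add_zero, mul_one] at h2
      have e2 : gr d.sx (rg (gi d.s₁)) z i = fderiv ℝ (rg (gi d.s₁)) z (Pi.single i 1, 0) :=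
        Dx1 i _ z
      rw [Pi.sub_apply, e2]
      exact h2
    · nlinarith
  · rw [hh_eq, rr_eq]
    refine (nn_le_n (c := 4 * (n ^ 3 * κ)) fun i => ?_).trans ?_
    · have h2 := rg_D N hR hκ hP hP0 hδ (0, Pi.single i 1)
      have e1 : dif ((0, Pi.single i 1) : VV n) = -Pi.single i 1 := by simp [dif]
      have e3 : dd (hg z) (-Pi.single i 1) = -(hg z i) := by
        have : (-Pi.single i 1 : V n) = (-1 : ℝ) • Pi.single i 1 := by simp
        rw [this, dd_smul_right, dd_single]; ring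
      rw [e1, e3] at h2
      simp only [nn_single, nn_zero', zero_add, mul_one, sub_neg_eq_add] at h2
      have e2 : gr d.sy (rg (gi d.s₁)) z i = fderiv ℝ (rg (gi d.s₁)) z (0, Pi.single i 1) :=
        Dy1 i _ z
      rw [Pi.add_apply, e2]
      exact h2
    · nlinarith
  · intro A
    refine (sup A).trans (mul_le_mul_of_nonneg_right ?_ (nn_nonneg A))
    linarith
  · intro A
    refine (sup' A).trans (mul_le_mul_of_nonneg_right ?_ (nn_nonneg A))
    linarith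
  · intro A B
    rw [hh_eq, rr_eq, sU_x h, sU_y h]
    have hU := rg_open N.sm
    have hW := rg_sm N.sm
    have e0 : TH d.sx d.sy (rg (gi d.s₁)) z A B = _ := TH_eq (s₁ := d.s₁) (s₂ := d.s₂) hU hW hpos
      N₁.sy N₂.sy (fun i j => df_of isOpen_univ (N₁.sm i j) (mem_univ _))
      (fun i j => df_of isOpen_univ (N₂.sm i j) (mem_univ _)) A B
    rw [e0]
    have sA := sup A
    have sB := sup' B
    rw [sU_x h] at sA
    rw [sU_y h] at sB
    set a := up (d.s₁ z.1) A with ha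
    set b := up (d.s₂ z.2) B with hb
    have hH := rg_H N hR hκ hP hP0 hδ (a, b)
    have e1 : dif ((a, b) : VV n) = a - b := rfl
    rw [e1] at hH
    have qa : nn a ≤ 2 * nn A := by
      have h3 := nn_le_add a A
      have h4 : n ^ 2 * q.ε * nn A ≤ 1 * nn A :=
        mul_le_mul_of_nonneg_right (by linarith) (nn_nonneg A)
      linarith
    have qb : nn b ≤ 2 * nn B := by
      have h3 := nn_le_add b B
      have h4 : n ^ 2 * q.ε * nn B ≤ 1 * nn B :=
        mul_le_mul_of_nonneg_right (by linarith) (nn_nonneg B)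
      linarith
    have hs : (nn a + nn b) ^ 2 ≤ 8 * (dd A A + dd B B) := by
      have h3 : (nn a + nn b) ^ 2 ≤ (2 * (nn A + nn B)) ^ 2 :=
        pow_le_pow_left₀ (add_nonneg (nn_nonneg _) (nn_nonneg _)) (by linarith) 2
      rw [← nn_sq, ← nn_sq]
      nlinarith [sq_nonneg (nn A - nn B)]
    set Q := dd A A + dd B B with hQ
    have hQ0 : 0 ≤ Q := add_nonneg (dd_self_nonneg A) (dd_self_nonneg B)
    have hRr : q.R⁻¹ ≤ 2 / rg (gi d.s₁) z := by
      rw [inv_eq_one_div, div_le_div_iff₀ hR hr]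
      linarith
    have nvb : ∀ (s : MF n) (x A : V n), Nr univ q.ε (q.ε * q.R⁻¹) (q.ε * q.R⁻¹ ^ 2) s →
        ∀ k, |nv s x A k| ≤ 3 * n ^ 3 * (q.ε * q.R⁻¹ * dd A A) := by
      intro s x A Ns k
      refine (H72.W.nv_le Ns (mem_univ _) E.ε1 (by positivity) A k).trans ?_
      have h3 : ‖A‖ ^ 2 ≤ dd A A := by
        rw [← nn_sq]
        exact pow_le_pow_left₀ (norm_nonneg _) (norm_le_nn A) 2
      gcongr
    have dxb : ∀ k, |dx k (rg (gi d.s₁)) z| ≤ 2 := fun k => by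
      have h3 := rg_D_le N hR hκ hP hP0 hδ (Pi.single k 1, 0)
      simp only [nn_single, nn_zero', add_zero, mul_one] at h3
      have e2 : dx k (rg (gi d.s₁)) z = fderiv ℝ (rg (gi d.s₁)) z (Pi.single k 1, 0) := rfl
      rw [e2]
      linarith
    have dyb : ∀ k, |dy k (rg (gi d.s₁)) z| ≤ 2 := fun k => by
      have h3 := rg_D_le N hR hκ hP hP0 hδ (0, Pi.single k 1)
      simp only [nn_single, nn_zero', zero_add, mul_one] at h3
      have e2 : dy k (rg (gi d.s₁)) z = fderiv ℝ (rg (gi d.s₁)) z (0, Pi.single k 1) := rfl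
      rw [e2]
      linarith
    have sx' : |∑ k, dx k (rg (gi d.s₁)) z * nv d.s₁ z.1 A k| ≤
        n * (2 * (3 * n ^ 3 * (q.ε * q.R⁻¹ * dd A A))) := by
      refine sum_le1 fun k => ?_
      rw [abs_mul]
      exact mul_le_mul (dxb k) (nvb _ _ _ N₁ k) (abs_nonneg _) (by norm_num)
    have sy' : |∑ k, dy k (rg (gi d.s₁)) z * nv d.s₂ z.2 B k| ≤
        n * (2 * (3 * n ^ 3 * (q.ε * q.R⁻¹ * dd B B))) := by
      refine sum_le1 fun k => ?_
      rw [abs_mul]
      exact mul_le_mul (dyb k) (nvb _ _ _ N₂ k) (abs_nonneg _) (by norm_num)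
    have f1 : 12 * (n ^ 3 * κ) / rg (gi d.s₁) z * (nn a + nn b) ^ 2 ≤
        96 * (n ^ 4 * κ) / rg (gi d.s₁) z * Q := by
      calc 12 * (n ^ 3 * κ) / rg (gi d.s₁) z * (nn a + nn b) ^ 2
          ≤ 12 * (n ^ 4 * κ) / rg (gi d.s₁) z * (8 * Q) := by gcongr
        _ = _ := by ring
    have f2 : n * (2 * (3 * n ^ 3 * (q.ε * q.R⁻¹ * dd A A))) +
        n * (2 * (3 * n ^ 3 * (q.ε * q.R⁻¹ * dd B B))) ≤
        12 * (n ^ 4 * q.ε) / rg (gi d.s₁) z * Q := by
      calc n * (2 * (3 * n ^ 3 * (q.ε * q.R⁻¹ * dd A A))) +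
            n * (2 * (3 * n ^ 3 * (q.ε * q.R⁻¹ * dd B B)))
          = 6 * (n ^ 4 * q.ε) * q.R⁻¹ * Q := by rw [hQ]; ring
        _ ≤ 6 * (n ^ 4 * q.ε) * (2 / rg (gi d.s₁) z) * Q := by gcongr
        _ = _ := by ring
    have f3 : cR n * q.ε / rg (gi d.s₁) z * Q = (100 * (n ^ 4 * q.ε) / rg (gi d.s₁) z * Q) +
        100 * (n ^ 4 * κ) / rg (gi d.s₁) z * Q := by rw [eC]; ring
    have f4 : 0 ≤ (n ^ 4 * q.ε) / rg (gi d.s₁) z * Q := by positivity
    have f5 : 0 ≤ (n ^ 4 * κ) / rg (gi d.s₁) z * Q := by positivity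
    have f6 : 96 * (n ^ 4 * κ) / rg (gi d.s₁) z * Q = 96 * ((n ^ 4 * κ) / rg (gi d.s₁) z * Q) := by
      ring
    have f7 : 12 * (n ^ 4 * q.ε) / rg (gi d.s₁) z * Q =
        12 * ((n ^ 4 * q.ε) / rg (gi d.s₁) z * Q) := by ring
    have f8 : 100 * (n ^ 4 * κ) / rg (gi d.s₁) z * Q = 100 * ((n ^ 4 * κ) / rg (gi d.s₁) z * Q) := by
      ring
    have f9 : 100 * (n ^ 4 * q.ε) / rg (gi d.s₁) z * Q =
        100 * ((n ^ 4 * q.ε) / rg (gi d.s₁) z * Q) := by ring
    rw [f3]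
    set X := fderiv ℝ (fun z' => fderiv ℝ (rg (gi d.s₁)) z' (a, b)) z (a, b) with hX
    set Y := (rg (gi d.s₁) z)⁻¹ * (dd (a - b) (a - b) - dd (hg z) (a - b) ^ 2) with hY
    set S₁ := ∑ k, dx k (rg (gi d.s₁)) z * nv d.s₁ z.1 A k with hS₁
    set S₂ := ∑ k, dy k (rg (gi d.s₁)) z * nv d.s₂ z.2 B k with hS₂
    have e3 : X + S₁ + S₂ - Y = (X - Y) + (S₁ + S₂) := by ring
    rw [e3]
    have g1 := abs_add_le (X - Y) (S₁ + S₂)
    have g2 := abs_add_le S₁ S₂
    linarith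
  · rw [rr_eq]
    refine b1.trans (mul_le_mul_of_nonneg_right ?_ (nn_nonneg _))
    linarith

end Vale.Agent.P088.R2.H238.A
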