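import Vale.Agent.P088.R2.H72.W.ThC
import Vale.Agent.P088.R2.H230.W.CvF
import Vale.Agent.P088.R2.H657.W.Fam

/-!
# P088, stage 3, zone A: the function `r = √(2ρ)` in curved slots

The first and the second derivative of `ρ` and of `r` against the flat ones, with errors of the
size of the tensor minus one.
-/

open Set Filter
open scoped ContDiff Topology Matrix

noncomputable section

namespace Vale.Agent.P088.R2.H238.A

open Vale.Agent.P088.LR
open Vale.Agent.P088.HY hiding dd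
open Vale.Agent.P088.R2.H961.GW Vale.Agent.P088.R2.H644.Ch
open Vale.Agent.P088.R2.H464.Cu Vale.Agent.P088.R2.H230.W
open Vale.Agent.P088.R2.H657.W (TR)

variable {n : ℕ}

section alg

variable {G : Matrix (Fin n) (Fin n) ℝ} {c : ℝ}

theorem norm_le_nn (a : V n) : ‖a‖ ≤ nn a :=
  (pi_norm_le_iff_of_nonneg (nn_nonneg a)).2 fun i => abs_le_nn a i

theorem l1_sq (a : V n) : (∑ i, |a i|) ^ 2 ≤ n * dd a a := by
  have h := sq_sum_le_card_mul_sum_sq (s := Finset.univ) (f := fun i => |a i|)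
  have e : dd a a = ∑ i, |a i| ^ 2 := by
    unfold dd
    exact Finset.sum_congr rfl fun i _ => by rw [sq_abs]; ring
  rw [e]
  simpa using h

theorem bf_nn (hc : 0 ≤ c) (hG : ∀ i j, |G i j| ≤ c) (a b : V n) :
    |bf G a b| ≤ n * c * (nn a * nn b) := by
  have h1 : |bf G a b| ≤ c * ((∑ i, |a i|) * ∑ j, |b j|) := by
    unfold bf
    refine (Finset.abs_sum_le_sum_abs _ _).trans ?_
    rw [Finset.sum_mul, Finset.mul_sum]
    refine Finset.sum_le_sum fun i _ => ?_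
    rw [Finset.mul_sum, Finset.mul_sum]
    refine (Finset.abs_sum_le_sum_abs _ _).trans (Finset.sum_le_sum fun j _ => ?_)
    rw [abs_mul, abs_mul, mul_assoc]
    exact mul_le_mul_of_nonneg_right (hG i j) (by positivity)
  have h2 : (∑ i, |a i|) * ∑ j, |b j| ≤ n * (nn a * nn b) := by
    have p1 : 0 ≤ ∑ i, |a i| := Finset.sum_nonneg fun i _ => abs_nonneg _
    have p2 : 0 ≤ ∑ i, |b i| := Finset.sum_nonneg fun i _ => abs_nonneg _
    have p3 : 0 ≤ n * (nn a * nn b) :=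
      mul_nonneg (Nat.cast_nonneg n) (mul_nonneg (nn_nonneg a) (nn_nonneg b))
    refine abs_le_of_sq_le_sq' ?_ p3 |>.2
    rw [mul_pow, mul_pow, mul_pow, nn_sq, nn_sq]
    calc (∑ i, |a i|) ^ 2 * (∑ j, |b j|) ^ 2 ≤ (n * dd a a) * (n * dd b b) :=
          mul_le_mul (l1_sq a) (l1_sq b) (sq_nonneg _)
            (mul_nonneg (Nat.cast_nonneg n) (dd_self_nonneg a))
      _ = _ := by ring
  calc _ ≤ c * ((∑ i, |a i|) * ∑ j, |b j|) := h1
    _ ≤ c * (n * (nn a * nn b)) := mul_le_mul_of_nonneg_left h2 hc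
    _ = _ := by ring

theorem bf_one_sub (hc : 0 ≤ c)
    (hG : ∀ i j, |G i j - (1 : Matrix (Fin n) (Fin n) ℝ) i j| ≤ c) (a b : V n) :
    |bf G a b - dd a b| ≤ n * c * (nn a * nn b) := by
  have e : bf G a b - dd a b = bf (G - 1) a b := by
    have e1 : dd a b = ∑ i, ∑ j, (1 : Matrix (Fin n) (Fin n) ℝ) i j * a i * b j := by
      unfold dd
      refine Finset.sum_congr rfl fun i _ => ?_
      simp [Matrix.one_apply]
    rw [e1]
    unfold bf
    rw [← Finset.sum_sub_distrib]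
    refine Finset.sum_congr rfl fun i _ => ?_
    rw [← Finset.sum_sub_distrib]
    refine Finset.sum_congr rfl fun j _ => ?_
    rw [Matrix.sub_apply]; ring
  rw [e]
  exact bf_nn hc (fun i j => by rw [Matrix.sub_apply]; exact hG i j) a b

theorem nn_dif (w : VV n) : nn (dif w) ≤ nn w.1 + nn w.2 := nn_sub_le w.1 w.2

theorem norm_mid (w : VV n) : ‖mid w‖ ≤ (nn w.1 + nn w.2) / 2 := by
  refine (norm_le_nn _).trans ?_
  unfold mid
  rw [nn_smul, abs_of_pos (by norm_num : (0 : ℝ) < 1 / 2)]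
  have := nn_add_le w.1 w.2
  linarith

/-- `n^j ≤ n^3`. -/
theorem npow_le (n : ℕ) {i j : ℕ} (hi : i ≠ 0) (h : i ≤ j) : (n : ℝ) ^ i ≤ (n : ℝ) ^ j := by
  rcases Nat.eq_zero_or_pos n with rfl | hn
  · have hj : j ≠ 0 := by omega
    simp [hi, hj]
  · exact pow_le_pow_right₀ (by exact_mod_cast hn) h

end alg

section rho

variable {g : MF n} {κ R : ℝ} {z : VV n}

theorem rq_d_bd (N : Nr univ κ (κ * R⁻¹) (κ * R⁻¹ ^ 2) g) (hR : 0 < R) (hκ : 0 ≤ κ)
    (hP : nn (dif z) ≤ R) (w : VV n) :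
    |fderiv ℝ (rq g) z w - dd (dif w) (dif z)| ≤
      2 * (n ^ 3 * κ) * ((nn w.1 + nn w.2) * nn (dif z)) := by
  have hd : ∀ i j, DifferentiableAt ℝ (fun x => g x i j) (mid z) := fun i j =>
    df_of isOpen_univ (N.sm i j) (mem_univ _)
  rw [(rq_d hd N.sy w).e]
  set s := nn w.1 + nn w.2 with hs
  have s0 : 0 ≤ s := add_nonneg (nn_nonneg _) (nn_nonneg _)
  set P := nn (dif z) with hPd
  have P0 : 0 ≤ P := nn_nonneg _
  have h1 := bf_one_sub hκ (fun i j => N.b0 (mid z) (mem_univ _) i j) (dif w) (dif z)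
  have h2 : |bf (dg (mid w) g (mid z)) (dif z) (dif z)| ≤
      n * (n * (s / 2 * (κ * R⁻¹))) * (P * P) := by
    refine bf_nn (by positivity) (fun i j => ?_) (dif z) (dif z)
    refine (N.dg (mem_univ _) (mid w) i j).trans ?_
    have := norm_mid w
    gcongr
  have h3 : R⁻¹ * P ≤ 1 := by
    rw [inv_mul_le_iff₀ hR]; linarith
  have h4 : n * (n * (s / 2 * (κ * R⁻¹))) * (P * P) ≤ n ^ 2 * κ / 2 * (s * P) := by
    have : n * (n * (s / 2 * (κ * R⁻¹))) * (P * P) = n ^ 2 * κ / 2 * (s * P) * (R⁻¹ * P) := by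
      ring
    rw [this]
    exact mul_le_of_le_one_right (by positivity) h3
  have h5 : n * κ * (nn (dif w) * P) ≤ n * κ * (s * P) := by
    have := nn_dif w
    gcongr
  have h6 : (n : ℝ) * κ * (s * P) ≤ n ^ 3 * κ * (s * P) := by
    have := npow_le n (i := 1) (j := 3) (by norm_num) (by norm_num)
    rw [pow_one] at this
    gcongr
  have h7 : (n : ℝ) ^ 2 * κ / 2 * (s * P) ≤ n ^ 3 * κ / 2 * (s * P) := by
    have := npow_le n (i := 2) (j := 3) (by norm_num) (by norm_num)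
    gcongr
  have e : bf (g (mid z)) (dif w) (dif z) + 1 / 2 * bf (dg (mid w) g (mid z)) (dif z) (dif z) -
      dd (dif w) (dif z) = (bf (g (mid z)) (dif w) (dif z) - dd (dif w) (dif z)) +
        1 / 2 * bf (dg (mid w) g (mid z)) (dif z) (dif z) := by ring
  rw [e]
  refine (abs_add_le _ _).trans ?_
  rw [abs_mul (1 / 2 : ℝ), abs_of_pos (by norm_num : (0 : ℝ) < 1 / 2)]
  have h8 : 0 ≤ n ^ 3 * κ * (s * P) := by positivity
  linarith

theorem rq_dd_bd (N : Nr univ κ (κ * R⁻¹) (κ * R⁻¹ ^ 2) g) (hR : 0 < R) (hκ : 0 ≤ κ)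
    (hP : nn (dif z) ≤ R) (w : VV n) :
    |fderiv ℝ (fun z => fderiv ℝ (rq g) z w) z w - dd (dif w) (dif w)| ≤
      3 * (n ^ 3 * κ) * (nn w.1 + nn w.2) ^ 2 := by
  rw [(rq_dd isOpen_univ N.sm N.sy w w (mem_univ _)).e]
  set s := nn w.1 + nn w.2 with hs
  have s0 : 0 ≤ s := add_nonneg (nn_nonneg _) (nn_nonneg _)
  set P := nn (dif z) with hPd
  have P0 : 0 ≤ P := nn_nonneg _
  have h1 := bf_one_sub hκ (fun i j => N.b0 (mid z) (mem_univ _) i j) (dif w) (dif w)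
  have h2 : |bf (dg (mid w) g (mid z)) (dif w) (dif z)| ≤
      n * (n * (s / 2 * (κ * R⁻¹))) * (nn (dif w) * P) := by
    refine bf_nn (by positivity) (fun i j => ?_) (dif w) (dif z)
    refine (N.dg (mem_univ _) (mid w) i j).trans ?_
    have := norm_mid w
    gcongr
  have h3 : |bf (dg (mid w) (dg (mid w) g) (mid z)) (dif z) (dif z)| ≤
      n * (n ^ 2 * (s / 2 * (s / 2) * (κ * R⁻¹ ^ 2))) * (P * P) := by
    refine bf_nn (by positivity) (fun i j => ?_) (dif z) (dif z)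
    refine (N.dg2 isOpen_univ (mem_univ _) (mid w) (mid w) i j).trans ?_
    have := norm_mid w
    gcongr
  have h4 : R⁻¹ * P ≤ 1 := by
    rw [inv_mul_le_iff₀ hR]; linarith
  have h4' : 0 ≤ R⁻¹ * P := by positivity
  have hw := nn_dif w
  have hw0 := nn_nonneg (dif w)
  have b2 : n * (n * (s / 2 * (κ * R⁻¹))) * (nn (dif w) * P) ≤ n ^ 2 * κ / 2 * s ^ 2 := by
    have e1 : n * (n * (s / 2 * (κ * R⁻¹))) * (nn (dif w) * P) =
        n ^ 2 * κ / 2 * (s * nn (dif w)) * (R⁻¹ * P) := by ring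
    rw [e1]
    refine (mul_le_of_le_one_right (by positivity) h4).trans ?_
    rw [_root_.sq s]
    gcongr
  have b3 : n * (n ^ 2 * (s / 2 * (s / 2) * (κ * R⁻¹ ^ 2))) * (P * P) ≤
      n ^ 3 * κ / 4 * s ^ 2 := by
    have e1 : n * (n ^ 2 * (s / 2 * (s / 2) * (κ * R⁻¹ ^ 2))) * (P * P) =
        n ^ 3 * κ / 4 * s ^ 2 * (R⁻¹ * P) ^ 2 := by ring
    rw [e1]
    exact mul_le_of_le_one_right (by positivity) (pow_le_one₀ h4' h4)
  have b1 : n * κ * (nn (dif w) * nn (dif w)) ≤ n * κ * s ^ 2 := by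
    rw [_root_.sq s]
    gcongr
  have c1 : (n : ℝ) * κ * s ^ 2 ≤ n ^ 3 * κ * s ^ 2 := by
    have := npow_le n (i := 1) (j := 3) (by norm_num) (by norm_num)
    rw [pow_one] at this
    gcongr
  have c2 : (n : ℝ) ^ 2 * κ / 2 * s ^ 2 ≤ n ^ 3 * κ / 2 * s ^ 2 := by
    have := npow_le n (i := 2) (j := 3) (by norm_num) (by norm_num)
    gcongr
  have e : bf (g (mid z)) (dif w) (dif w) +
      bf (dg (mid w) g (mid z)) (dif w) (dif z) + bf (dg (mid w) g (mid z)) (dif w) (dif z) +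
      1 / 2 * bf (dg (mid w) (dg (mid w) g) (mid z)) (dif z) (dif z) - dd (dif w) (dif w) =
      (bf (g (mid z)) (dif w) (dif w) - dd (dif w) (dif w)) +
        (2 * bf (dg (mid w) g (mid z)) (dif w) (dif z) +
        1 / 2 * bf (dg (mid w) (dg (mid w) g) (mid z)) (dif z) (dif z)) := by ring
  rw [e]
  refine (abs_add_le _ _).trans ?_
  have a2 := abs_add_le (2 * bf (dg (mid w) g (mid z)) (dif w) (dif z))
    (1 / 2 * bf (dg (mid w) (dg (mid w) g) (mid z)) (dif z) (dif z))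
  rw [abs_mul (2 : ℝ), abs_of_pos (by norm_num : (0 : ℝ) < 2), abs_mul (1 / 2 : ℝ),
    abs_of_pos (by norm_num : (0 : ℝ) < 1 / 2)] at a2
  have h8 : 0 ≤ n ^ 3 * κ * s ^ 2 := by positivity
  linarith

theorem rq_bd (N : Nr univ κ (κ * R⁻¹) (κ * R⁻¹ ^ 2) g) (hκ : 0 ≤ κ) :
    |2 * rq g z - nn (dif z) ^ 2| ≤ n ^ 3 * κ * nn (dif z) ^ 2 := by
  have h1 := bf_one_sub hκ (fun i j => N.b0 (mid z) (mem_univ _) i j) (dif z) (dif z)
  have e : 2 * rq g z = bf (g (mid z)) (dif z) (dif z) := by unfold rq; ring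
  rw [e, nn_sq]
  refine h1.trans ?_
  rw [nn_mul_self]
  have := npow_le n (i := 1) (j := 3) (by norm_num) (by norm_num)
  rw [pow_one] at this
  have h2 := dd_self_nonneg (dif z)
  gcongr

end rho

end Vale.Agent.P088.R2.H238.A
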