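import Vale.Agent.P088.R2.H238.A.Rho0

/-!
# P088, stage 3, zone A: the function `r = √(2ρ)`, its derivatives and its Hessian form
-/

open Set Filter
open scoped ContDiff Topology Matrix

noncomputable section

namespace Vale.Agent.P088.R2.H238.A

open Vale.Agent.P088.LR
open Vale.Agent.P088.HY hiding dd
open Vale.Agent.P088.R2.H961.GW Vale.Agent.P088.R2.H644.Ch
open Vale.Agent.P088.R2.H464.Cu Vale.Agent.P088.R2.H230.W
open Vale.Agent.P088.R2.H657.W (TR)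

variable {n : ℕ}

/-- `r`. -/
def rg (g : MF n) (z : VV n) : ℝ := √(2 * rq g z)

section rr

variable {g : MF n} {κ R : ℝ} {z : VV n}

theorem sm_rqu (hg : ∀ i j, ContDiffOn ℝ ∞ (fun x => g x i j) univ) : ContDiff ℝ ∞ (rq g) := by
  have := sm_rq hg
  rw [← contDiffOn_univ]
  exact this

theorem rg_pos (hz : 0 < rq g z) : 0 < rg g z := Real.sqrt_pos.2 (by linarith)

theorem rg_sq (hz : 0 < rq g z) : rg g z ^ 2 = 2 * rq g z := Real.sq_sqrt (by linarith)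

theorem rg_sm (hg : ∀ i j, ContDiffOn ℝ ∞ (fun x => g x i j) univ) :
    Sm {z | 0 < rq g z} (rg g) := by
  intro z hz
  have hz' : 0 < rq g z := hz
  exact ((contDiff_const.mul (sm_rqu hg)).contDiffAt.sqrt (by positivity)).contDiffWithinAt

theorem rg_open (hg : ∀ i j, ContDiffOn ℝ ∞ (fun x => g x i j) univ) :
    IsOpen {z | 0 < rq g z} := isOpen_lt continuous_const (sm_rqu hg).continuous

theorem rg_fd (hg : ∀ i j, ContDiffOn ℝ ∞ (fun x => g x i j) univ) (hz : 0 < rq g z) (w : VV n) :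
    fderiv ℝ (rg g) z w = fderiv ℝ (rq g) z w / rg g z := by
  have hd : HasFDerivAt (rq g) (fderiv ℝ (rq g) z) z :=
    ((sm_rqu hg).differentiable (by norm_num) z).hasFDerivAt
  have h2 := (hd.const_mul 2).sqrt (by linarith)
  have h3 : fderiv ℝ (rg g) z = (1 / (2 * √(2 * rq g z))) • ((2 : ℝ) • fderiv ℝ (rq g) z) := h2.fderiv
  rw [h3]
  have := rg_pos hz
  simp only [_root_.smul_apply, smul_eq_mul]
  change 1 / (2 * rg g z) * (2 * fderiv ℝ (rq g) z w) = _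
  field_simp

theorem rg_fd2 (hg : ∀ i j, ContDiffOn ℝ ∞ (fun x => g x i j) univ) (hz : 0 < rq g z) (w : VV n) :
    fderiv ℝ (fun z' => fderiv ℝ (rg g) z' w) z w =
      (fderiv ℝ (fun z' => fderiv ℝ (rq g) z' w) z w - fderiv ℝ (rg g) z w ^ 2) / rg g z := by
  have hp := rg_pos hz
  have ev : (fun z' => fderiv ℝ (rg g) z' w * rg g z') =ᶠ[𝓝 z] fun z' =>
      fderiv ℝ (rq g) z' w := by
    filter_upwards [(rg_open hg).mem_nhds hz] with y hy
    rw [rg_fd hg hy w, div_mul_cancel₀ _ (rg_pos hy).ne']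
  have sm : Sm {z | 0 < rq g z} fun z' => fderiv ℝ (rg g) z' w :=
    ((rg_sm hg).fderiv_of_isOpen (rg_open hg) (by norm_num)).clm_apply contDiffOn_const
  have d1 : DifferentiableAt ℝ (fun z' => fderiv ℝ (rg g) z' w) z :=
    ((sm z hz).contDiffAt ((rg_open hg).mem_nhds hz)).differentiableAt (by norm_num)
  have d2 : DifferentiableAt ℝ (rg g) z :=
    ((rg_sm hg z hz).contDiffAt ((rg_open hg).mem_nhds hz)).differentiableAt (by norm_num)
  have h := Filter.EventuallyEq.fderiv_eq (𝕜 := ℝ) ev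
  rw [fderiv_fun_mul d1 d2] at h
  have h' := congrArg (fun L : VV n →L[ℝ] ℝ => L w) h
  simp only [_root_.add_apply, _root_.smul_apply, smul_eq_mul] at h'
  rw [eq_div_iff hp.ne', ← h']
  ring

end rr

section rr2

variable {g : MF n} {κ R : ℝ} {z : VV n}

/-- The direction of `x - y`. -/
def hg (z : VV n) (l : Fin n) : ℝ := (nn (dif z))⁻¹ * dif z l

theorem hg_eq (z : VV n) : hg z = (nn (dif z))⁻¹ • dif z := rfl

theorem hg_one (h0 : 0 < nn (dif z)) : dd (hg z) (hg z) = 1 := by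
  rw [hg_eq, dd_smul_left, dd_smul_right, ← nn_mul_self]
  field_simp

theorem rg_P (N : Nr univ κ (κ * R⁻¹) (κ * R⁻¹ ^ 2) g) (hκ : 0 ≤ κ) (h0 : 0 < nn (dif z))
    (hδ : n ^ 3 * κ ≤ 1 / 100) :
    0 < rq g z ∧ |rg g z - nn (dif z)| ≤ n ^ 3 * κ * nn (dif z) ∧ 99 / 100 * nn (dif z) ≤ rg g z ∧
      rg g z ≤ 101 / 100 * nn (dif z) := by
  have h1 := rq_bd (z := z) N hκ
  set P := nn (dif z) with hP
  have h2 : n ^ 3 * κ * P ^ 2 ≤ 1 / 100 * P ^ 2 := mul_le_mul_of_nonneg_right hδ (sq_nonneg _)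
  have hP2 : 0 < P ^ 2 := by positivity
  have hpos : 0 < rq g z := by
    have := (abs_le.1 h1).1
    linarith
  have hr := rg_pos hpos
  have hr2 := rg_sq hpos
  have h3 : |rg g z - P| * P ≤ n ^ 3 * κ * P * P := by
    have h4 : |rg g z - P| * (rg g z + P) = |2 * rq g z - P ^ 2| := by
      rw [← hr2, show rg g z ^ 2 - P ^ 2 = (rg g z - P) * (rg g z + P) by ring, abs_mul,
        abs_of_pos (by positivity : 0 < rg g z + P)]
    have h5 : |rg g z - P| * P ≤ |rg g z - P| * (rg g z + P) :=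
      mul_le_mul_of_nonneg_left (by linarith) (abs_nonneg _)
    rw [h4] at h5
    refine (h5.trans h1).trans (le_of_eq (by ring))
  have h4 : |rg g z - P| ≤ n ^ 3 * κ * P := le_of_mul_le_mul_right h3 h0
  have h5 : n ^ 3 * κ * P ≤ 1 / 100 * P := mul_le_mul_of_nonneg_right hδ h0.le
  have h6 := abs_le.1 h4
  exact ⟨hpos, h4, by linarith, by linarith⟩

theorem dd_hg_le (h0 : 0 < nn (dif z)) (v : V n) : |dd (hg z) v| ≤ nn v := by
  have := dd_le_nn (hg z) v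
  rwa [nn_one (hg_one h0), one_mul] at this

theorem rg_D (N : Nr univ κ (κ * R⁻¹) (κ * R⁻¹ ^ 2) g) (hR : 0 < R) (hκ : 0 ≤ κ)
    (hP : nn (dif z) ≤ R) (h0 : 0 < nn (dif z)) (hδ : n ^ 3 * κ ≤ 1 / 100) (w : VV n) :
    |fderiv ℝ (rg g) z w - dd (hg z) (dif w)| ≤ 4 * (n ^ 3 * κ) * (nn w.1 + nn w.2) := by
  obtain ⟨hpos, h2, h3, h4⟩ := rg_P N hκ h0 hδ
  have h1 := rq_d_bd N hR hκ hP w
  have hw := nn_dif w
  set s := nn w.1 + nn w.2 with hs
  have s0 : 0 ≤ s := add_nonneg (nn_nonneg _) (nn_nonneg _)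
  set P := nn (dif z) with hPd
  have hr := rg_pos hpos
  have hd0 : 0 ≤ n ^ 3 * κ := by positivity
  have e1 : dd (hg z) (dif w) = dd (dif w) (dif z) / P := by
    rw [hg_eq, dd_smul_left, H230.W.dd_comm (dif z), ← hPd]; field_simp
  rw [rg_fd N.sm hpos, e1]
  have e2 : fderiv ℝ (rq g) z w / rg g z - dd (dif w) (dif z) / P =
      ((fderiv ℝ (rq g) z w - dd (dif w) (dif z)) +
        dd (dif w) (dif z) / P * (P - rg g z)) / rg g z := by
    field_simp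
    ring
  rw [e2, abs_div, abs_of_pos hr, div_le_iff₀ hr]
  have h5 : |dd (dif w) (dif z) / P| ≤ s := by
    rw [← e1]
    exact (dd_hg_le h0 _).trans hw
  have h6 : |dd (dif w) (dif z) / P * (P - rg g z)| ≤ s * (n ^ 3 * κ * P) := by
    rw [abs_mul, abs_sub_comm P]
    exact mul_le_mul h5 h2 (abs_nonneg _) s0
  refine (abs_add_le _ _).trans ?_
  have h7 : 0 ≤ n ^ 3 * κ * s * (rg g z - 99 / 100 * P) :=
    mul_nonneg (by positivity) (by linarith)
  have h8 : 0 ≤ n ^ 3 * κ * s * P := by positivity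
  nlinarith

theorem rg_D_le (N : Nr univ κ (κ * R⁻¹) (κ * R⁻¹ ^ 2) g) (hR : 0 < R) (hκ : 0 ≤ κ)
    (hP : nn (dif z) ≤ R) (h0 : 0 < nn (dif z)) (hδ : n ^ 3 * κ ≤ 1 / 100) (w : VV n) :
    |fderiv ℝ (rg g) z w| ≤ 26 / 25 * (nn w.1 + nn w.2) := by
  have h1 := rg_D N hR hκ hP h0 hδ w
  have h2 := dd_hg_le h0 (dif w)
  have h3 := nn_dif w
  set s := nn w.1 + nn w.2 with hs
  have s0 : 0 ≤ s := add_nonneg (nn_nonneg _) (nn_nonneg _)
  have h4 : 4 * (n ^ 3 * κ) * s ≤ 4 * (1 / 100) * s := by gcongr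
  have h5 := abs_le.1 h1
  have h6 := abs_le.1 h2
  rw [abs_le]
  constructor <;> linarith

theorem rg_H (N : Nr univ κ (κ * R⁻¹) (κ * R⁻¹ ^ 2) g) (hR : 0 < R) (hκ : 0 ≤ κ)
    (hP : nn (dif z) ≤ R) (h0 : 0 < nn (dif z)) (hδ : n ^ 3 * κ ≤ 1 / 100) (w : VV n) :
    |fderiv ℝ (fun z' => fderiv ℝ (rg g) z' w) z w -
      (rg g z)⁻¹ * (dd (dif w) (dif w) - dd (hg z) (dif w) ^ 2)| ≤
      12 * (n ^ 3 * κ) / rg g z * (nn w.1 + nn w.2) ^ 2 := by
  obtain ⟨hpos, -, -, -⟩ := rg_P N hκ h0 hδ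
  have h1 := rq_dd_bd N hR hκ hP w
  have h2 := rg_D N hR hκ hP h0 hδ w
  have h3 := rg_D_le N hR hκ hP h0 hδ w
  have h4 := (dd_hg_le h0 (dif w)).trans (nn_dif w)
  set s := nn w.1 + nn w.2 with hs
  have s0 : 0 ≤ s := add_nonneg (nn_nonneg _) (nn_nonneg _)
  have hr := rg_pos hpos
  have hd0 : 0 ≤ n ^ 3 * κ := by positivity
  rw [rg_fd2 N.sm hpos]
  set a := fderiv ℝ (fun z' => fderiv ℝ (rq g) z' w) z w with ha
  set b := fderiv ℝ (rg g) z w with hb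
  set c := dd (hg z) (dif w) with hc
  have e1 : (a - b ^ 2) / rg g z - (rg g z)⁻¹ * (dd (dif w) (dif w) - c ^ 2) =
      ((a - dd (dif w) (dif w)) - (b - c) * (b + c)) / rg g z := by
    field_simp
    ring
  have e2 : 12 * (n ^ 3 * κ) / rg g z * s ^ 2 = 12 * (n ^ 3 * κ) * s ^ 2 / rg g z := by ring
  rw [e1, e2, abs_div, abs_of_pos hr]
  refine div_le_div_of_nonneg_right ?_ hr.le
  have h5 : |(b - c) * (b + c)| ≤ 4 * (n ^ 3 * κ) * s * (26 / 25 * s + s) := by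
    rw [abs_mul]
    refine mul_le_mul h2 ((abs_add_le _ _).trans (add_le_add h3 h4)) (abs_nonneg _) (by positivity)
  have h6 := abs_sub (a - dd (dif w) (dif w)) ((b - c) * (b + c))
  have h7 : 0 ≤ n ^ 3 * κ * s ^ 2 := by positivity
  nlinarith

end rr2

end Vale.Agent.P088.R2.H238.A
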